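import Vale.Agent.P137.Cen.Main

/-!
# P137: endpoint Sobolev regularity of the centred maximal function over Euclidean balls, `d ≥ 2`
-/

open MeasureTheory Metric
open scoped ENNReal

namespace Vale.Agent.Results.P137.CentredGradient

theorem result : ∀ d : ℕ, 2 ≤ d → ∃ C : ℝ,
    ∀ (f : EuclideanSpace ℝ (Fin d) → ℝ) (g : Fin d → EuclideanSpace ℝ (Fin d) → ℝ),
    Integrable f → (∀ i, Integrable (g i)) →
    (∀ i (φ : EuclideanSpace ℝ (Fin d) → ℝ), ContDiff ℝ ((⊤ : ℕ∞) : WithTop ℕ∞) φ →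
      HasCompactSupport φ →
      ∫ x, f x * fderiv ℝ φ x (EuclideanSpace.single i 1) = -∫ x, g i x * φ x) →
    let M : EuclideanSpace ℝ (Fin d) → ℝ≥0∞ := fun x =>
      ⨆ (r : ℝ) (_ : 0 < r), (∫⁻ y in ball x r, ‖f y‖ₑ) / volume (ball x r)
    (∀ᵐ x, M x ≠ ⊤) ∧ LocallyIntegrable (fun x => (M x).toReal) ∧
      ∃ G : Fin d → EuclideanSpace ℝ (Fin d) → ℝ, (∀ i, Integrable (G i)) ∧
        (∀ i (φ : EuclideanSpace ℝ (Fin d) → ℝ), ContDiff ℝ 1 φ → HasCompactSupport φ →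
          ∫ x, (M x).toReal * fderiv ℝ φ x (EuclideanSpace.single i 1) = -∫ x, G i x * φ x) ∧
        ∫ x, Real.sqrt (∑ i, G i x ^ 2) ≤ C * ∫ x, Real.sqrt (∑ i, g i x ^ 2) :=
  fun _ hd => Vale.Agent.P137.Cen.centred_main hd

end Vale.Agent.Results.P137.CentredGradient
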